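import Mathlib
import Vale.Agent.P181.Bridge

open scoped TensorProduct

universe u

/-- Injectivity of the Foulkes-Howe map for `b ≥ (a-1)^2`, for every space `V`. -/
theorem Vale.Agent.Results.P181.QuadraticFoulkes.result :
    ∀ (a b : ℕ), (a - 1) ^ 2 ≤ b →
      ∀ (V : Type u) [AddCommGroup V] [Module ℂ V] [FiniteDimensional ℂ V],
        ∃ Φ : Sym[ℂ]^a (Sym[ℂ]^b V) →ₗ[ℂ] Sym[ℂ]^b (Sym[ℂ]^a V),
          (∀ v : Fin a → Fin b → V,
            Φ (⨂ₛ[ℂ] i, ⨂ₛ[ℂ] j, v i j)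
              = ∑ σ : Fin a → Equiv.Perm (Fin b), ⨂ₛ[ℂ] j, ⨂ₛ[ℂ] i, v i (σ i j)) ∧
            Function.Injective Φ := by
  intro a b hb V _ _ _
  classical
  refine ⟨Vale.Agent.P181.psi (Module.finBasis ℂ V),
    Vale.Agent.P181.psi_tprod (Module.finBasis ℂ V), ?_⟩
  exact Vale.Agent.P181.psi_injective (Module.finBasis ℂ V) hb
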